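import Vale.Agent.P019.Defs

/-!
# Definitions for the full faithfulness of the reconstruction
-/

namespace Vale.Agent.P019

/-- Let `Θ : V_K → V_L` be an isomorphism, and let `K'/K`, `L'/L` be purely inseparable (so that
`V_K = V_{K'}` and `V_L = V_{L'}`). `Induces Θ c α` says that `Θ = c • α_*`, read in `V_{L'}`: if
`Θ[x] = [y]` then `[y] = c • [α(x)]` in `V_{L'}`. -/
def Induces {ℓ : ℕ} {K L K' L' : Type*} [Field K] [Field L] [Field K'] [Field L'] [Algebra K K']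
    [Algebra L L'] (Θ : V ℓ K ≃ₗ[ZMod ℓ] V ℓ L) (c : (ZMod ℓ)ˣ) (α : K' ≃+* L') : Prop :=
  ∀ (x : Kˣ) (y : Lˣ), Θ (V.mk ℓ x) = V.mk ℓ y →
    V.mk ℓ (Units.map (algebraMap L L' : L →* L') y) =
      (c : ZMod ℓ) • V.mk ℓ (Units.map (α : K' →* L')
        (Units.map (algebraMap K K' : K →* K') x))

/-- The pairs `(c, α)` and `(c', α')` differ by a power of Frobenius: with `p` the characteristic
exponent (`p = 1` in characteristic zero), `α' = α ^ (p ^ n)` and `c = c' p ^ n`, or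
`α = α' ^ (p ^ n)` and `c' = c p ^ n`, for some `n ≥ 0`. In characteristic zero this says
`α' = α` and `c' = c`. -/
def FrobTwist {ℓ : ℕ} {K' L' : Type*} [Field K'] [Field L'] (c : (ZMod ℓ)ˣ) (α : K' ≃+* L')
    (c' : (ZMod ℓ)ˣ) (α' : K' ≃+* L') : Prop :=
  ∃ n : ℕ,
    ((∀ x, α' x = α x ^ ringExpChar L' ^ n) ∧
      (c : ZMod ℓ) = c' * ((ringExpChar L' ^ n : ℕ) : ZMod ℓ)) ∨
    ((∀ x, α x = α' x ^ ringExpChar L' ^ n) ∧
      (c' : ZMod ℓ) = c * ((ringExpChar L' ^ n : ℕ) : ZMod ℓ))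

end Vale.Agent.P019
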