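import Vale.Agent.P019.H654.Uniq
import Vale.Agent.P019.H654.Defs

/-!
# Full faithfulness
-/

namespace Vale.Agent.P019P.H654

open Vale.Agent.P019

open Polynomial Filter

open scoped TensorProduct

set_option linter.all false

section const

variable {K : Type*} [Field K] [PerfectField K]

/-- an algebraically closed subfield is contained in the constants. -/
theorem le_const (ℓ : ℕ) [Fact ℓ.Prime] [NeZero (ℓ : K)] {k F : Subfield K} (hk : IsAlgClosed k) (hfg : FG k (⊤ : Subfield K))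
    (hF : IsAlgClosed F) : F ≤ k := by
  intro x hx
  by_contra hxk
  have h1 := dist_top (ℓ := ℓ) hk hfg hxk 0
  have hrac : RAC (F ⊓ k) := by
    intro z hz
    refine ⟨RAC_of_isAlgClosed F hF z (isAlgebraic_mono inf_le_left hz),
      RAC_of_isAlgClosed k hk z (isAlgebraic_mono inf_le_right hz)⟩
  have hac : IsAlgClosed (F ⊓ k : Subfield K) := isAlgClosed_of_RAC hk hrac inf_le_right
  refine infinite_of_isAlgClosed hac (h1.subset ?_)
  rintro c ⟨hc1, hc2⟩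
  exact ⟨hc2, line_cl_const hF (F.sub_mem hx hc1)⟩

end const

section maps

variable {K L : Type*} [Field K] [Field L] {ℓ : ℕ}

/-- the isomorphism of classes induced by an isomorphism of fields. -/
noncomputable def Veq (ℓ : ℕ) (α : K ≃+* L) : V ℓ K ≃ₗ[ZMod ℓ] V ℓ L :=
  LinearEquiv.ofLinear (Vmap ℓ (α : K →+* L)) (Vmap ℓ (α.symm : L →+* K))
    (by
      ext v
      obtain ⟨x, hx0, rfl⟩ := cl_surj ℓ v
      simp [Vmap_cl])
    (by
      ext v
      obtain ⟨x, hx0, rfl⟩ := cl_surj ℓ v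
      simp [Vmap_cl])

theorem Veq_cl (α : K ≃+* L) (x : K) : Veq ℓ α (cl ℓ x) = cl ℓ (α x) := Vmap_cl ℓ _ x

theorem Veq_compatible (α : K ≃+* L) : Compatible (Veq ℓ α) := by
  unfold Compatible
  have h1 : (Veq ℓ α).toLinearMap = Vmap ℓ (α : K →+* L) := rfl
  have h2 : (Veq ℓ α).symm.toLinearMap = Vmap ℓ (α.symm : L →+* K) := rfl
  apply le_antisymm
  · rw [Submodule.map_le_iff_le_comap, h1]
    exact Vmap_R ℓ _
  · intro t ht
    have h3 := Vmap_R ℓ (α.symm : L →+* K) ht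
    rw [Submodule.mem_comap, ← h2] at h3
    refine ⟨_, h3, ?_⟩
    have h4 : (TensorProduct.map (Veq ℓ α).toLinearMap (Veq ℓ α).toLinearMap) ∘ₗ
        (TensorProduct.map (Veq ℓ α).symm.toLinearMap (Veq ℓ α).symm.toLinearMap) =
        LinearMap.id := by
      rw [← TensorProduct.map_comp]
      simp
    exact LinearMap.congr_fun h4 t

/-- multiplication by a unit. -/
noncomputable def Vsm (c : (ZMod ℓ)ˣ) : V ℓ L ≃ₗ[ZMod ℓ] V ℓ L := LinearEquiv.smulOfUnit c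

theorem Vsm_apply (c : (ZMod ℓ)ˣ) (v : V ℓ L) : Vsm c v = (c : ZMod ℓ) • v := rfl

theorem Vsm_compatible (c : (ZMod ℓ)ˣ) : Compatible (Vsm (L := L) c) := by
  unfold Compatible
  have h1 : ∀ t : V ℓ L ⊗[ZMod ℓ] V ℓ L,
      TensorProduct.map (Vsm (L := L) c).toLinearMap (Vsm (L := L) c).toLinearMap t =
        ((c : ZMod ℓ) * (c : ZMod ℓ)) • t := by
    intro t
    induction t with
    | zero => simp
    | tmul u w =>
      rw [TensorProduct.map_tmul]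
      change ((c : ZMod ℓ) • u) ⊗ₜ[ZMod ℓ] ((c : ZMod ℓ) • w) = _
      rw [TensorProduct.smul_tmul_smul]
    | add x y hx hy => rw [map_add, hx, hy, smul_add]
  apply le_antisymm
  · rintro _ ⟨t, ht, rfl⟩
    rw [h1]
    exact Submodule.smul_mem _ _ ht
  · intro t ht
    refine ⟨((c⁻¹ : (ZMod ℓ)ˣ) * (c⁻¹ : (ZMod ℓ)ˣ) : ZMod ℓ) • t, Submodule.smul_mem _ _ ht, ?_⟩
    rw [h1, smul_smul]
    have h2 : (c : ZMod ℓ) * c * (((c⁻¹ : (ZMod ℓ)ˣ) : ZMod ℓ) * ((c⁻¹ : (ZMod ℓ)ˣ) : ZMod ℓ)) =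
        1 := by
      have h3 := c.mul_inv
      calc (c : ZMod ℓ) * c * (((c⁻¹ : (ZMod ℓ)ˣ) : ZMod ℓ) * ((c⁻¹ : (ZMod ℓ)ˣ) : ZMod ℓ))
          = (c * ((c⁻¹ : (ZMod ℓ)ˣ) : ZMod ℓ)) * (c * ((c⁻¹ : (ZMod ℓ)ˣ) : ZMod ℓ)) := by ring
        _ = 1 := by rw [h3, one_mul]
    rw [h2, one_smul]

end maps

section main

universe u v

/-- transcendence degree at least two is inherited. -/
theorem two_of_compatible {K : Type u} {L : Type v} [Field K] [Field L] [PerfectField K]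
    [PerfectField L] {ℓ : ℕ} [Fact ℓ.Prime] [NeZero (ℓ : K)] [NeZero (ℓ : L)]
    {Θ : V ℓ K ≃ₗ[ZMod ℓ] V ℓ L}
    {k : Subfield K} (hk : IsAlgClosed k) (hfgk : FG k (⊤ : Subfield K))
    {l : Subfield L} (hl : IsAlgClosed l)
    (hΘ : Compatible Θ) (trk : ∃ x y : K, x ∉ k ∧ ¬ IsAlgebraic (adj k x) y) :
    ∃ x y : L, x ∉ l ∧ ¬ IsAlgebraic (adj l x) y := by
  classical
  haveI : PerfectField l := inferInstance
  obtain ⟨n, hn⟩ := r16_td hk hfgk trk
  obtain ⟨B, hBc, hB⟩ := dim_ge' (n + 2) hk hfgk hl hΘ hn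
  obtain ⟨x, hx, y, hy, hxy⟩ := Finset.one_lt_card.1 (show 1 < B.card by omega)
  refine ⟨x, y, fun hxk => ?_, fun hya => ?_⟩
  · exact hB ∅ (by simp) x hx (by simp) (isAlgebraic_of_mem (le_gsp _ _ hxk))
  · have e1 : gsp l (insert x ∅) = adj l x := by
      rw [gsp_insert, gsp_empty]
    refine hB (insert x ∅) (by simpa using hx) y hy (by simpa using hxy.symm) ?_
    rw [e1]
    exact hya

variable {K L : Type*} [Field K] [Field L] {ℓ : ℕ} [Fact ℓ.Prime] [NeZero (ℓ : K)]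
  [NeZero (ℓ : L)]
  {K' L' : Type*} [Field K'] [Field L'] [Algebra K K'] [Algebra L L']
  [PerfectField K'] [PerfectField L'] [IsPurelyInseparable K K'] [IsPurelyInseparable L L']
  [NeZero (ℓ : K')] [NeZero (ℓ : L')]

/-- reading `Induces` on the perfect closures. -/
theorem induces_iff {Θ : V ℓ K ≃ₗ[ZMod ℓ] V ℓ L} {c : (ZMod ℓ)ˣ} {α : K' ≃+* L'} :
    Induces Θ c α ↔ ∀ v : V ℓ K, perfV ℓ L L' (Θ v) =
      (c : ZMod ℓ) • Veq ℓ α (perfV ℓ K K' v) := by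
  constructor
  · intro h v
    obtain ⟨x, rfl⟩ := mk_surj ℓ v
    obtain ⟨y, hy⟩ := mk_surj ℓ (Θ (V.mk ℓ x))
    rw [← hy]
    exact h x y hy.symm
  · intro h x y hxy
    have h1 := h (V.mk ℓ x)
    rw [hxy] at h1
    exact h1

/-- each pair induces exactly one isomorphism, which is compatible. -/
theorem exists_unique_induced (c : (ZMod ℓ)ˣ) (α : K' ≃+* L') :
    ∃! Θ : V ℓ K ≃ₗ[ZMod ℓ] V ℓ L, Compatible Θ ∧ Induces Θ c α := by
  refine ⟨((perfV ℓ K K').trans ((Veq ℓ α).trans (Vsm c))).trans (perfV ℓ L L').symm, ⟨?_, ?_⟩, ?_⟩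
  · exact Compatible.trans (Compatible.trans perfV_compatible
      (Compatible.trans (Veq_compatible α) (Vsm_compatible c))) perfV_compatible.symm
  · rw [induces_iff]
    intro v
    change perfV ℓ L L' ((perfV ℓ L L').symm (Vsm c (Veq ℓ α (perfV ℓ K K' v)))) = _
    rw [LinearEquiv.apply_symm_apply, Vsm_apply]
  · rintro Θ' ⟨-, h⟩
    rw [induces_iff] at h
    ext v
    apply (perfV ℓ L L').injective
    rw [h]
    change _ = perfV ℓ L L' ((perfV ℓ L L').symm (Vsm c (Veq ℓ α (perfV ℓ K K' v))))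
    rw [LinearEquiv.apply_symm_apply, Vsm_apply]

/-- an isomorphism of the perfect closures maps constants onto constants. -/
theorem const_iff {k : Subfield K'} {l : Subfield L'} (hk : IsAlgClosed k)
    (hfgk : FG k (⊤ : Subfield K')) (hl : IsAlgClosed l) (hfgl : FG l (⊤ : Subfield L'))
    (ℓ : ℕ) [Fact ℓ.Prime] [NeZero (ℓ : K')] [NeZero (ℓ : L')]
    (α : K' ≃+* L') (x : K') : x ∈ k ↔ α x ∈ l := by
  have h1 : k.map (α : K' →+* L') ≤ l := by
    refine le_const ℓ hl hfgl ?_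
    exact isAlgClosed_map (α : K' →+* L') hk
  have h2 : l.map (α.symm : L' →+* K') ≤ k := by
    refine le_const ℓ hk hfgk ?_
    exact isAlgClosed_map (α.symm : L' →+* K') hl
  constructor
  · intro hx
    exact h1 ⟨x, hx, rfl⟩
  · intro hx
    have h3 := h2 ⟨α x, hx, rfl⟩
    simpa using h3

/-- uniqueness up to Frobenius. -/
theorem twist_of_induces {k : Subfield K'} (hk : IsAlgClosed k)
    (hfgk : FG k (⊤ : Subfield K')) (htr : ∃ x y : K', x ∉ k ∧ ¬ IsAlgebraic (adj k x) y)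
    {Θ : V ℓ K ≃ₗ[ZMod ℓ] V ℓ L} {c c' : (ZMod ℓ)ˣ} {α α' : K' ≃+* L'}
    (h : Induces Θ c α) (h' : Induces Θ c' α') : FrobTwist c α c' α' := by
  rw [induces_iff] at h h'
  have hq : ringExpChar K' = ringExpChar L' := ringExpChar_eq_of_hom (α : K' →+* L')
  have h1 : ∀ w : V ℓ K', (c : ZMod ℓ) • Veq ℓ α w = (c' : ZMod ℓ) • Veq ℓ α' w := by
    intro w
    obtain ⟨v, rfl⟩ := (perfV ℓ K K').surjective w
    rw [← h, ← h']
  let γ : K' ≃+* K' := α.trans α'.symm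
  have hγα : ∀ x, α' (γ x) = α x := fun x => by
    change α' (α'.symm (α x)) = α x
    rw [RingEquiv.apply_symm_apply]
  have hcc : (c : ZMod ℓ) ≠ 0 := c.ne_zero
  have hcc' : (c' : ZMod ℓ) ≠ 0 := c'.ne_zero
  have h2 : ∀ x, cl ℓ (γ x) = ((c : ZMod ℓ)⁻¹ * c') • cl ℓ x := by
    intro x
    apply (Veq ℓ α').injective
    rw [map_smul, Veq_cl, hγα, mul_smul, ← h1, Veq_cl, smul_smul, inv_mul_cancel₀ hcc, one_smul]
  obtain ⟨n, ⟨h3, h4⟩ | ⟨h3, h4⟩⟩ := frob_of_smul hk hfgk htr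
    (const_iff hk hfgk hk hfgk ℓ γ) (mul_ne_zero (inv_ne_zero hcc) hcc') h2
  · refine ⟨n, Or.inr ⟨fun x => ?_, ?_⟩⟩
    · rw [← hγα x, h3, map_pow, hq]
    · rw [← hq, ← h4, mul_inv_cancel_left₀ hcc]
  · refine ⟨n, Or.inl ⟨fun x => ?_, ?_⟩⟩
    · rw [← hγα x, ← map_pow, ← hq, h3]
    · rw [← hq]
      have h5 : (c : ZMod ℓ) * ((c : ZMod ℓ)⁻¹ * c' * ((ringExpChar K' ^ n : ℕ) : ZMod ℓ)) = c := by
        rw [h4, mul_one]
      rw [mul_assoc, mul_inv_cancel_left₀ hcc] at h5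
      exact h5.symm

/-- Frobenius twists induce the same isomorphism. -/
theorem induces_of_twist {Θ : V ℓ K ≃ₗ[ZMod ℓ] V ℓ L} {c c' : (ZMod ℓ)ˣ} {α α' : K' ≃+* L'}
    (h : Induces Θ c α) (ht : FrobTwist c α c' α') : Induces Θ c' α' := by
  rw [induces_iff] at h ⊢
  obtain ⟨n, ⟨h1, h2⟩ | ⟨h1, h2⟩⟩ := ht
  · intro v
    rw [h]
    obtain ⟨x, hx0, hx⟩ := cl_surj ℓ (perfV ℓ K K' v)
    rw [← hx, Veq_cl, Veq_cl, h1, cl_pow, h2, mul_smul, Nat.cast_smul_eq_nsmul]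
  · intro v
    rw [h]
    obtain ⟨x, hx0, hx⟩ := cl_surj ℓ (perfV ℓ K K' v)
    rw [← hx, Veq_cl, Veq_cl, h1, cl_pow, h2, mul_smul, Nat.cast_smul_eq_nsmul]

end main

end Vale.Agent.P019P.H654
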