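import Vale.Agent.P019.H654.Sub
import Mathlib.LinearAlgebra.FreeModule.ModN

/-!
# The reconstruction theorem with Mathlib's quotient groups and tensor products
-/

namespace Vale.Agent.P019P.H654

open Vale.Agent.P019

open scoped TensorProduct

set_option linter.all false

section core

variable {ℓ : ℕ} [Fact ℓ.Prime] {k K l L : Type*} [Field k] [Field K] [Field l] [Field L]
  [Algebra k K] [Algebra l L]
  {K' L' : Type*} [Field K'] [Field L'] [Algebra K K'] [Algebra L L']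
  [PerfectField K'] [PerfectField L'] [IsPurelyInseparable K K'] [IsPurelyInseparable L L']
  [NeZero (ℓ : K)] [NeZero (ℓ : L)] [NeZero (ℓ : K')] [NeZero (ℓ : L')]

theorem mem_VS_img {E : IntermediateField k K} {v : V ℓ K} :
    perfV ℓ K K' v ∈ VS ℓ (img K' E) ↔ ∃ x : Kˣ, (x : K) ∈ E ∧ v = V.mk ℓ x := by
  unfold img
  rw [VS_pf]
  constructor
  · rintro ⟨_, ⟨e, he, rfl⟩, h0, h⟩
    have he0 : e ≠ 0 := by
      rintro rfl
      exact h0 (map_zero _)
    refine ⟨Units.mk0 e he0, he, ?_⟩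
    apply (perfV ℓ K K').injective
    rw [h, ← cl_of_ne ℓ he0]
    exact (Vmap_cl ℓ (algebraMap K K') e).symm
  · rintro ⟨x, hx, rfl⟩
    refine ⟨algebraMap K K' x, ⟨x, hx, rfl⟩, (map_ne_zero _).2 x.ne_zero, ?_⟩
    rw [← cl_unit]
    exact Vmap_cl ℓ (algebraMap K K') x

/-- the lattice isomorphism. -/
theorem lattice (hkc : IsAlgClosed (cst' k K K')) (hkf : FG (cst' k K K') (⊤ : Subfield K'))
    (hlc : IsAlgClosed (cst' l L L')) (hlf : FG (cst' l L L') (⊤ : Subfield L'))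
    {Θ : V ℓ K ≃ₗ[ZMod ℓ] V ℓ L} {c : (ZMod ℓ)ˣ} {α : K' ≃+* L'}
    (hα : ∀ x, x ∈ cst' k K K' ↔ α x ∈ cst' l L L')
    (h : ∀ v : V ℓ K, perfV ℓ L L' (Θ v) = (c : ZMod ℓ) • Veq ℓ α (perfV ℓ K K' v)) :
    ∃ φ : {E : IntermediateField k K // ∀ x : K, IsAlgebraic E x → x ∈ E} ≃o
        {F : IntermediateField l L // ∀ y : L, IsAlgebraic F y → y ∈ F},
      (∀ E F, φ E = F ↔ ∀ v : V ℓ K, (∃ x : Kˣ, (x : K) ∈ E.1 ∧ v = V.mk ℓ x) ↔
        ∃ y : Lˣ, (y : L) ∈ F.1 ∧ Θ v = V.mk ℓ y) ∧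
      ∀ E, α '' {x : K' | ∃ (n : ℕ) (e : K), e ∈ E.1 ∧ algebraMap K K' e = x ^ ringExpChar K ^ n} =
        {y : L' | ∃ (n : ℕ) (f : L), f ∈ (φ E).1 ∧ algebraMap L L' f = y ^ ringExpChar L ^ n} := by
  refine ⟨(isoImg k K K').trans ((isoAlpha α hα).trans (isoImg l L L').symm), ?_, ?_⟩
  · intro E F
    have h1 : (isoImg k K K').trans ((isoAlpha α hα).trans (isoImg l L L').symm) E = F ↔
        ∀ x : K', x ∈ img K' E.1 ↔ α x ∈ img L' F.1 := by
      change (isoImg l L L').symm (isoAlpha α hα (isoImg k K K' E)) = F ↔ _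
      rw [OrderIso.symm_apply_eq]
      constructor
      · intro h2 x
        have h3 := mem_isoAlpha (hα := hα) (E := isoImg k K K' E) (x := x)
        rw [h2] at h3
        exact h3.symm
      · intro h2
        apply Subtype.ext
        ext y
        have h3 := mem_isoAlpha (hα := hα) (E := isoImg k K K' E) (x := α.symm y)
        rw [RingEquiv.apply_symm_apply] at h3
        rw [h3]
        have h4 := h2 (α.symm y)
        rw [RingEquiv.apply_symm_apply] at h4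
        exact h4
    rw [h1, ← match_iff (ℓ := ℓ) hkc hkf hlc hlf hα (cst'_le_img E.1) (cst'_le_img F.1)
      (rac_img E.2) (rac_img F.2) c]
    constructor
    · intro h2 v
      rw [← mem_VS_img (K' := K'), h2, ← h, mem_VS_img]
    · intro h2 w
      obtain ⟨v, rfl⟩ := (perfV ℓ K K').surjective w
      rw [mem_VS_img, h2, ← h, mem_VS_img]
  · intro E
    have h2 : ringExpChar K = ringExpChar K' := ringExpChar_eq_of_hom (algebraMap K K')
    have h3 : ringExpChar L = ringExpChar L' := ringExpChar_eq_of_hom (algebraMap L L')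
    rw [h2, h3]
    ext y
    have h4 : ((isoImg l L L') ((isoImg k K K').trans ((isoAlpha α hα).trans
        (isoImg l L L').symm) E)) = isoAlpha α hα (isoImg k K K' E) := by
      exact OrderIso.apply_symm_apply (isoImg l L L') _
    have h5 : ∀ y, y ∈ img L' ((isoImg k K K').trans ((isoAlpha α hα).trans
        (isoImg l L L').symm) E).1 ↔ y ∈ (isoAlpha α hα (isoImg k K K' E)).1 := by
      intro y
      rw [← h4]
      rfl
    constructor
    · rintro ⟨x, ⟨n, e, he, hx⟩, rfl⟩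
      have h6 : α x ∈ (isoAlpha α hα (isoImg k K K' E)).1 :=
        mem_isoAlpha.2 (mem_img.2 ⟨n, e, he, hx⟩)
      exact mem_img.1 ((h5 _).2 h6)
    · intro hy
      have h6 := (h5 y).1 (mem_img.2 hy)
      have h7 := mem_isoAlpha (hα := hα) (E := isoImg k K K' E) (x := α.symm y)
      rw [RingEquiv.apply_symm_apply] at h7
      exact ⟨α.symm y, mem_img.1 (h7.1 h6), RingEquiv.apply_symm_apply _ _⟩

/-- the reconstruction over the perfect closures. -/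
theorem core [IsAlgClosed k] [IsAlgClosed l] [Algebra.EssFiniteType k K]
    [Algebra.EssFiniteType l L] (hKtr : 2 ≤ Algebra.trdeg k K)
    {Θ : V ℓ K ≃ₗ[ZMod ℓ] V ℓ L} (hΘ : Compatible Θ) :
    ∃ (c : (ZMod ℓ)ˣ) (α : K' ≃+* L'), (∀ x, x ∈ cst' k K K' ↔ α x ∈ cst' l L L') ∧
      ∀ v : V ℓ K, perfV ℓ L L' (Θ v) = (c : ZMod ℓ) • Veq ℓ α (perfV ℓ K K' v) := by
  have hkc : IsAlgClosed (cst' k K K') := isAlgClosed_cst'
  have hlc : IsAlgClosed (cst' l L L') := isAlgClosed_cst'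
  have hkf : FG (cst' k K K') (⊤ : Subfield K') := fg_cst'
  have hlf : FG (cst' l L L') (⊤ : Subfield L') := fg_cst'
  have htr := exists_two' (K' := K') hKtr
  let Θ' : V ℓ K' ≃ₗ[ZMod ℓ] V ℓ L' :=
    ((perfV ℓ K K').symm.trans Θ).trans (perfV ℓ L L')
  have hΘ' : Compatible Θ' :=
    Compatible.trans (Compatible.trans perfV_compatible.symm hΘ) perfV_compatible
  obtain ⟨c, α, h5, h6⟩ : ∃ (c : (ZMod ℓ)ˣ) (α : K' ≃+* L'),
      (∀ x, x ∈ cst' k K K' ↔ α x ∈ cst' l L L') ∧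
      ∀ x : K', Θ' (cl ℓ x) = (c : ZMod ℓ) • cl ℓ (α x) :=
    main_gen hkc hkf hlc hlf hΘ' htr (two_of_compatible hkc hkf hlc hΘ' htr)
  refine ⟨c, α, h5, fun v => ?_⟩
  obtain ⟨x, hx0, hx⟩ := cl_surj ℓ (perfV ℓ K K' v)
  have h7 := h6 x
  rw [hx] at h7
  rw [← hx, Veq_cl]
  rw [← h7]
  change _ = perfV ℓ L L' (Θ ((perfV ℓ K K').symm (perfV ℓ K K' v)))
  rw [LinearEquiv.symm_apply_apply]

end core

section plain

variable {ℓ : ℕ} [Fact ℓ.Prime] {K L : Type*} [Field K] [Field L]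

/-- the class in `ModN (Additive Fˣ) ℓ` -/
noncomputable def md (ℓ : ℕ) {F : Type*} [Field F] (x : Fˣ) : ModN (Additive Fˣ) ℓ :=
  ModN.mkQ ℓ (Additive.ofMul x)

/-- the class map, additive. -/
noncomputable def mkHom (ℓ : ℕ) (F : Type*) [Field F] : Additive Fˣ →+ V ℓ F where
  toFun x := V.mk ℓ x.toMul
  map_zero' := rfl
  map_add' _ _ := rfl

theorem mkHom_apply (x : Kˣ) : mkHom ℓ K (Additive.ofMul x) = V.mk ℓ x := rfl

/-- the comparison map. -/
noncomputable def bet0 (ℓ : ℕ) [Fact ℓ.Prime] (F : Type*) [Field F] :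
    ModN (Additive Fˣ) ℓ →ₗ[ZMod ℓ] V ℓ F :=
  ModN.liftEquiv'.symm ⟨mkHom ℓ F, fun g => by
    rw [← Nat.cast_smul_eq_nsmul (ZMod ℓ), ZMod.natCast_self, zero_smul]⟩

theorem bet0_md (x : Kˣ) : bet0 ℓ K (md ℓ x) = V.mk ℓ x := rfl

theorem md_surj (v : ModN (Additive Kˣ) ℓ) : ∃ x : Kˣ, md ℓ x = v := by
  obtain ⟨y, rfl⟩ := Submodule.mkQ_surjective _ v
  exact ⟨y.toMul, rfl⟩

theorem bet0_bij (ℓ : ℕ) [Fact ℓ.Prime] (F : Type*) [Field F] : Function.Bijective (bet0 ℓ F) := by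
  constructor
  · rw [← LinearMap.ker_eq_bot, LinearMap.ker_eq_bot']
    intro v hv
    obtain ⟨x, rfl⟩ := md_surj v
    rw [bet0_md, ← cl_unit] at hv
    obtain ⟨w, hw0, hw⟩ := (cl_eq_zero_iff ℓ x.ne_zero).1 hv
    have h1 : x = Units.mk0 w hw0 ^ ℓ := by
      ext
      rw [Units.val_pow_eq_pow_val, Units.val_mk0, hw]
    rw [h1]
    unfold md
    rw [ofMul_pow, map_nsmul, ← Nat.cast_smul_eq_nsmul (ZMod ℓ), ZMod.natCast_self, zero_smul]
  · intro v
    obtain ⟨x, rfl⟩ := mk_surj ℓ v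
    exact ⟨md ℓ x, bet0_md x⟩

/-- the comparison isomorphism. -/
noncomputable def bet (ℓ : ℕ) [Fact ℓ.Prime] (F : Type*) [Field F] :
    ModN (Additive Fˣ) ℓ ≃ₗ[ZMod ℓ] V ℓ F := LinearEquiv.ofBijective _ (bet0_bij ℓ F)

theorem bet_md (x : Kˣ) : bet ℓ K (md ℓ x) = V.mk ℓ x := rfl

theorem bet_symm_mk (x : Kˣ) : (bet ℓ K).symm (V.mk ℓ x) = md ℓ x := by
  rw [← bet_md, LinearEquiv.symm_apply_apply]

/-- the relations. -/
noncomputable def RM (ℓ : ℕ) (F : Type*) [Field F] :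
    Submodule (ZMod ℓ) (ModN (Additive Fˣ) ℓ ⊗[ZMod ℓ] ModN (Additive Fˣ) ℓ) :=
  Submodule.span (ZMod ℓ) {t | ∃ x y : Fˣ, (x : F) + (y : F) = 1 ∧
    t = md ℓ x ⊗ₜ[ZMod ℓ] md ℓ y}

theorem bet_mem {t : ModN (Additive Kˣ) ℓ ⊗[ZMod ℓ] ModN (Additive Kˣ) ℓ} (ht : t ∈ RM ℓ K) :
    TensorProduct.map (bet ℓ K).toLinearMap (bet ℓ K).toLinearMap t ∈ R ℓ K := by
  have h : RM ℓ K ≤ (R ℓ K).comap
      (TensorProduct.map (bet ℓ K).toLinearMap (bet ℓ K).toLinearMap) := by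
    unfold RM
    rw [Submodule.span_le]
    rintro _ ⟨x, y, hxy, rfl⟩
    rw [SetLike.mem_coe, Submodule.mem_comap, TensorProduct.map_tmul]
    exact Submodule.subset_span ⟨x, y, hxy, rfl⟩
  exact h ht

/-- transport of an isomorphism. -/
noncomputable def conj (Θ : ModN (Additive Kˣ) ℓ ≃ₗ[ZMod ℓ] ModN (Additive Lˣ) ℓ) :
    V ℓ K ≃ₗ[ZMod ℓ] V ℓ L :=
  ((bet ℓ K).symm.trans Θ).trans (bet ℓ L)

theorem conj_mk (Θ : ModN (Additive Kˣ) ℓ ≃ₗ[ZMod ℓ] ModN (Additive Lˣ) ℓ) (x : Kˣ) :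
    conj Θ (V.mk ℓ x) = bet ℓ L (Θ (md ℓ x)) := by
  change bet ℓ L (Θ ((bet ℓ K).symm (V.mk ℓ x))) = _
  rw [bet_symm_mk]

/-- compatibility is transported. -/
theorem compatible_conj (Θ : ModN (Additive Kˣ) ℓ ≃ₗ[ZMod ℓ] ModN (Additive Lˣ) ℓ)
    (h : (RM ℓ K).map (TensorProduct.map Θ.toLinearMap Θ.toLinearMap) = RM ℓ L) :
    Compatible (conj Θ) := by
  apply le_antisymm
  · rw [Submodule.map_le_iff_le_comap]
    conv_lhs => unfold R
    rw [Submodule.span_le]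
    rintro _ ⟨x, y, hxy, rfl⟩
    rw [SetLike.mem_coe, Submodule.mem_comap, TensorProduct.map_tmul]
    have h1 : TensorProduct.map Θ.toLinearMap Θ.toLinearMap (md ℓ x ⊗ₜ[ZMod ℓ] md ℓ y) ∈
        RM ℓ L := by
      rw [← h]
      exact Submodule.mem_map_of_mem (Submodule.subset_span ⟨x, y, hxy, rfl⟩)
    have h2 := bet_mem h1
    rw [TensorProduct.map_tmul, TensorProduct.map_tmul] at h2
    change conj Θ (V.mk ℓ x) ⊗ₜ[ZMod ℓ] conj Θ (V.mk ℓ y) ∈ _
    rw [conj_mk, conj_mk]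
    exact h2
  · conv_lhs => unfold R
    rw [Submodule.span_le]
    rintro _ ⟨x, y, hxy, rfl⟩
    have h1 : md ℓ x ⊗ₜ[ZMod ℓ] md ℓ y ∈ RM ℓ L := Submodule.subset_span ⟨x, y, hxy, rfl⟩
    rw [← h] at h1
    obtain ⟨t, ht, h2⟩ := h1
    refine ⟨_, bet_mem ht, ?_⟩
    have h3 : ∀ t : ModN (Additive Kˣ) ℓ ⊗[ZMod ℓ] ModN (Additive Kˣ) ℓ,
        TensorProduct.map (conj Θ).toLinearMap (conj Θ).toLinearMap
          (TensorProduct.map (bet ℓ K).toLinearMap (bet ℓ K).toLinearMap t) =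
          TensorProduct.map (bet ℓ L).toLinearMap (bet ℓ L).toLinearMap
            (TensorProduct.map Θ.toLinearMap Θ.toLinearMap t) := by
      intro t
      induction t with
      | zero => simp
      | tmul u w =>
        simp only [TensorProduct.map_tmul]
        change bet ℓ L (Θ ((bet ℓ K).symm (bet ℓ K u))) ⊗ₜ[ZMod ℓ]
          bet ℓ L (Θ ((bet ℓ K).symm (bet ℓ K w))) = _
        rw [LinearEquiv.symm_apply_apply, LinearEquiv.symm_apply_apply]
        rfl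
      | add a b ha hb => rw [map_add, map_add, map_add, map_add, ha, hb]
    rw [h3, h2, TensorProduct.map_tmul]
    rfl

end plain

end Vale.Agent.P019P.H654
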