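import Vale.Agent.P019.H654.Main

/-!
# Subfields and their classes
-/

namespace Vale.Agent.P019P.H654

open Vale.Agent.P019

open scoped TensorProduct

set_option linter.all false

section lines

variable {K : Type*} [Field K] [PerfectField K] {ℓ : ℕ} [Fact ℓ.Prime] [NeZero (ℓ : K)]

/-- an element all of whose translates by constants have classes in `V_F` lies in `F`. -/
theorem mem_of_lines {l F : Subfield K} (hl : IsAlgClosed l) (hfg : FG l (⊤ : Subfield K))
    (hlF : l ≤ F) (hF : RAC F) {z : K} (h : ∀ c ∈ l, cl ℓ (z - c) ∈ VS ℓ F) : z ∈ F := by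
  by_contra hz
  have hna : ¬ IsAlgebraic F z := fun h => hz (hF z h)
  have hzl : z ∉ l := fun h => hz (hlF h)
  have hfin := int_top ℓ hl hfg hlF (le_adj l z) (mem_adj l z) hna
    (fun w hw => isAlgebraic_of_mem hw)
  refine infinite_of_isAlgClosed hl ?_
  refine ((hfin.biUnion fun v _ => dist_top (ℓ := ℓ) hl hfg hzl v)).subset ?_
  intro c hc
  rw [Set.mem_iUnion₂]
  refine ⟨cl ℓ (z - c), ⟨h c hc, ?_⟩, hc, rfl⟩
  exact cl_mem_VS (Subfield.sub_mem _ (mem_adj l z) (le_adj l z hc))

end lines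

section maps

variable {K L : Type*} [Field K] [Field L] [PerfectField K] [PerfectField L] {ℓ : ℕ}
  [Fact ℓ.Prime] [NeZero (ℓ : K)] [NeZero (ℓ : L)]

theorem smul_mem_VS_iff {F : Subfield L} (c : (ZMod ℓ)ˣ) {v : V ℓ L} :
    (c : ZMod ℓ) • v ∈ VS ℓ F ↔ v ∈ VS ℓ F := by
  constructor
  · intro h
    have h1 := Submodule.smul_mem _ ((c⁻¹ : (ZMod ℓ)ˣ) : ZMod ℓ) h
    rwa [smul_smul, Units.inv_mul, one_smul] at h1
  · exact fun h => Submodule.smul_mem _ _ h

/-- classes of subfields are matched iff the subfields are matched. -/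
theorem match_iff {k : Subfield K} (hk : IsAlgClosed k) (hfgk : FG k (⊤ : Subfield K))
    {l : Subfield L} (hl : IsAlgClosed l) (hfgl : FG l (⊤ : Subfield L)) {α : K ≃+* L}
    (hα : ∀ x, x ∈ k ↔ α x ∈ l) {E : Subfield K} {F : Subfield L} (hkE : k ≤ E) (hlF : l ≤ F)
    (hE : RAC E) (hF : RAC F) (c : (ZMod ℓ)ˣ) :
    (∀ v : V ℓ K, v ∈ VS ℓ E ↔ (c : ZMod ℓ) • Veq ℓ α v ∈ VS ℓ F) ↔
      ∀ x, x ∈ E ↔ α x ∈ F := by
  constructor
  · intro h x
    constructor
    · intro hx
      refine mem_of_lines (ℓ := ℓ) hl hfgl hlF hF fun d hd => ?_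
      have h1 : α.symm d ∈ k := (hα _).2 (by rwa [RingEquiv.apply_symm_apply])
      have h2 := (h (cl ℓ (x - α.symm d))).1 (cl_mem_VS (E.sub_mem hx (hkE h1)))
      rw [Veq_cl, smul_mem_VS_iff, map_sub, RingEquiv.apply_symm_apply] at h2
      exact h2
    · intro hx
      refine mem_of_lines (ℓ := ℓ) hk hfgk hkE hE fun d hd => ?_
      rw [h, Veq_cl, smul_mem_VS_iff, map_sub]
      exact cl_mem_VS (F.sub_mem hx (hlF ((hα d).1 hd)))
  · intro h v
    rw [smul_mem_VS_iff]
    constructor
    · rintro ⟨x, hx, hx0, rfl⟩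
      rw [Veq_cl]
      exact cl_mem_VS ((h x).1 hx)
    · rintro ⟨y, hy, hy0, hv⟩
      have h1 : v = cl ℓ (α.symm y) := by
        apply (Veq ℓ α).injective
        rw [hv, Veq_cl, RingEquiv.apply_symm_apply]
      rw [h1]
      exact cl_mem_VS ((h _).2 (by rwa [RingEquiv.apply_symm_apply]))

end maps

section pullback

variable {k K K' : Type*} [Field k] [Field K] [Field K'] [Algebra k K] [Algebra K K']

theorem exists_pow_mem [IsPurelyInseparable K K'] (z : K') :
    ∃ (n : ℕ) (y : K), algebraMap K K' y = z ^ ringExpChar K' ^ n := by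
  rw [← ringExpChar_eq_of_hom (algebraMap K K')]
  obtain ⟨n, y, hy⟩ := IsPurelyInseparable.pow_mem K (ringExpChar K) z
  exact ⟨n, y, hy⟩

/-- the perfect closure of `E` in `K'`. -/
noncomputable def img (K' : Type*) [Field K'] [Algebra K K'] (E : IntermediateField k K) :
    Subfield K' :=
  pf (E.toSubfield.map (algebraMap K K'))

theorem mem_img {E : IntermediateField k K} {x : K'} :
    x ∈ img K' E ↔ ∃ (n : ℕ) (e : K), e ∈ E ∧ algebraMap K K' e = x ^ ringExpChar K' ^ n := by
  unfold img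
  rw [mem_pf]
  constructor
  · rintro ⟨n, e, he, h⟩
    exact ⟨n, e, he, h⟩
  · rintro ⟨n, e, he, h⟩
    exact ⟨n, e, he, h⟩

theorem algebraMap_mem_img {E : IntermediateField k K} {e : K} (he : e ∈ E) :
    algebraMap K K' e ∈ img K' E := mem_img.2 ⟨0, e, he, by simp⟩

theorem cst'_le_img (E : IntermediateField k K) : cst' k K K' ≤ img K' E := by
  intro x hx
  obtain ⟨c, rfl⟩ := mem_cst'.1 hx
  exact algebraMap_mem_img (E.algebraMap_mem c)

/-- algebraicity over the image. -/
theorem isAlgebraic_of_map {E : IntermediateField k K} {y : K}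
    (h : IsAlgebraic (E.toSubfield.map (algebraMap K K')) (algebraMap K K' y)) :
    IsAlgebraic E y := by
  let f : E →+* (E.toSubfield.map (algebraMap K K')) :=
    ((algebraMap K K').comp (algebraMap E K)).codRestrict _ (fun x => ⟨x, x.2, rfl⟩)
  refine IsAlgebraic.of_ringHom_of_comp_eq (S := E.toSubfield.map (algebraMap K K'))
    (B := K') f (algebraMap K K') h ?_ (algebraMap K K').injective ?_
  · rintro ⟨_, x, hx, rfl⟩
    exact ⟨⟨x, hx⟩, rfl⟩
  · ext x
    rfl

theorem rac_img [IsPurelyInseparable K K'] {E : IntermediateField k K}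
    (hE : ∀ x : K, IsAlgebraic E x → x ∈ E) : RAC (img K' E) := by
  intro z hz
  obtain ⟨n, y, hy⟩ := exists_pow_mem (K := K) z
  have h1 : IsAlgebraic (E.toSubfield.map (algebraMap K K')) z := isAlgebraic_pf.1 hz
  have h2 : IsAlgebraic (E.toSubfield.map (algebraMap K K')) (algebraMap K K' y) := by
    rw [hy]
    exact h1.pow _
  exact mem_img.2 ⟨n, y, hE y (isAlgebraic_of_map h2), hy⟩

theorem comap_img {E : IntermediateField k K} (hE : ∀ x : K, IsAlgebraic E x → x ∈ E) {y : K} :
    algebraMap K K' y ∈ img K' E ↔ y ∈ E := by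
  constructor
  · intro h
    apply hE
    exact isAlgebraic_of_map (isAlgebraic_pf.1 (isAlgebraic_of_mem h))
  · exact algebraMap_mem_img

/-- the field of the elements of `K` in a subfield of `K'`. -/
def pull (k K : Type*) [Field k] [Field K] [Algebra k K] [Algebra K K'] (F : Subfield K')
    (hF : cst' k K K' ≤ F) : IntermediateField k K :=
  { F.comap (algebraMap K K') with
    algebraMap_mem' := fun a => hF (mem_cst'.2 ⟨a, rfl⟩) }

theorem mem_pull {F : Subfield K'} {hF : cst' k K K' ≤ F} {y : K} :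
    y ∈ pull k K F hF ↔ algebraMap K K' y ∈ F := Iff.rfl

theorem rac_pull {F : Subfield K'} {hF : cst' k K K' ≤ F} (h : RAC F) {x : K}
    (hx : IsAlgebraic (pull k K F hF) x) : x ∈ pull k K F hF := by
  apply h
  let f : pull k K F hF →+* F :=
    ((algebraMap K K').comp (algebraMap (pull k K F hF) K)).codRestrict _ (fun x => x.2)
  exact IsAlgebraic.ringHom_of_comp_eq (S := F) (B := K') f (algebraMap K K') hx f.injective
    (by ext x; rfl)

/-- relatively algebraically closed subfields of `K` and of `K'`. -/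
noncomputable def isoImg (k K K' : Type*) [Field k] [Field K] [Field K'] [Algebra k K]
    [Algebra K K'] [IsPurelyInseparable K K'] :
    {E : IntermediateField k K // ∀ x : K, IsAlgebraic E x → x ∈ E} ≃o
      {F : Subfield K' // cst' k K K' ≤ F ∧ RAC F} where
  toFun E := ⟨img K' E.1, cst'_le_img E.1, rac_img E.2⟩
  invFun F := ⟨pull k K F.1 F.2.1, fun x hx => rac_pull F.2.2 hx⟩
  left_inv E := by
    apply Subtype.ext
    ext y
    exact comap_img E.2
  right_inv F := by
    apply Subtype.ext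
    ext z
    change z ∈ img K' (pull k K F.1 F.2.1) ↔ z ∈ F.1
    constructor
    · intro hz
      obtain ⟨n, e, he, h⟩ := mem_img.1 hz
      apply F.2.2
      refine IsAlgebraic.of_pow (n := ringExpChar K' ^ n) (q_pow_pos K' n) ?_
      rw [← h]
      exact isAlgebraic_of_mem (mem_pull.1 he)
    · intro hz
      obtain ⟨n, y, hy⟩ := exists_pow_mem (K := K) z
      refine mem_img.2 ⟨n, y, ?_, hy⟩
      rw [mem_pull, hy]
      exact F.1.pow_mem hz _
  map_rel_iff' := by
    intro E₁ E₂
    constructor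
    · intro h y hy
      have h1 : algebraMap K K' y ∈ img K' E₂.1 := h (algebraMap_mem_img hy)
      exact (comap_img E₂.2).1 h1
    · intro h z hz
      obtain ⟨n, e, he, h1⟩ := mem_img.1 hz
      exact mem_img.2 ⟨n, e, h he, h1⟩

end pullback

section alpha

variable {K L : Type*} [Field K] [Field L]

theorem rac_comap {α : K ≃+* L} {F : Subfield L} (hF : RAC F) :
    RAC (F.comap (α : K →+* L)) := by
  intro z hz
  apply hF
  let f : F.comap (α : K →+* L) →+* F :=
    ((α : K →+* L).comp (F.comap (α : K →+* L)).subtype).codRestrict _ (fun x => x.2)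
  exact IsAlgebraic.ringHom_of_comp_eq (S := F) (B := L) f (α : K →+* L) hz f.injective
    (by ext x; rfl)

/-- the subfields matched by an isomorphism. -/
noncomputable def isoAlpha {k : Subfield K} {l : Subfield L} (α : K ≃+* L)
    (hα : ∀ x, x ∈ k ↔ α x ∈ l) :
    {E : Subfield K // k ≤ E ∧ RAC E} ≃o {F : Subfield L // l ≤ F ∧ RAC F} where
  toFun E := ⟨E.1.comap (α.symm : L →+* K), fun y hy => E.2.1 ((hα _).2 (by simpa using hy)),
    rac_comap (α := α.symm) E.2.2⟩
  invFun F := ⟨F.1.comap (α : K →+* L), fun y hy => F.2.1 ((hα _).1 hy), rac_comap F.2.2⟩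
  left_inv E := by
    apply Subtype.ext
    ext y
    change α.symm (α y) ∈ E.1 ↔ _
    rw [RingEquiv.symm_apply_apply]
  right_inv F := by
    apply Subtype.ext
    ext y
    change α (α.symm y) ∈ F.1 ↔ _
    rw [RingEquiv.apply_symm_apply]
  map_rel_iff' := by
    intro E₁ E₂
    constructor
    · intro h y hy
      have h1 : α.symm (α y) ∈ E₂.1 := h (by
        change α.symm (α y) ∈ E₁.1
        rwa [RingEquiv.symm_apply_apply])
      rwa [RingEquiv.symm_apply_apply] at h1
    · intro h y hy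
      exact h hy

theorem mem_isoAlpha {k : Subfield K} {l : Subfield L} {α : K ≃+* L}
    {hα : ∀ x, x ∈ k ↔ α x ∈ l} {E : {E : Subfield K // k ≤ E ∧ RAC E}} {x : K} :
    α x ∈ (isoAlpha α hα E).1 ↔ x ∈ E.1 := by
  change α.symm (α x) ∈ E.1 ↔ _
  rw [RingEquiv.symm_apply_apply]

end alpha

end Vale.Agent.P019P.H654
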