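import Vale.Agent.P019.Bd4.B12

/-!
# Uniqueness up to Frobenius of the isomorphism inducing a compatible isomorphism
-/

namespace Vale.Agent.P019P.H654

open Vale.Agent.P019

open Polynomial Filter

set_option linter.all false

/-- A field endomorphism which is a Moebius transformation at almost all points is the
identity. -/
theorem mob_hom {F : Type*} [Field F] [Infinite F] (σ : F →+* F) {A B C' D : F}
    (hdet : A * D - B * C' ≠ 0)
    (h : {t : F | ¬ σ t * (C' * t + D) = A * t + B}.Finite) :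
    C' = 0 ∧ B = 0 ∧ A = D ∧ ∀ t, σ t = t := by
  set S : Set F := {t : F | ¬ σ t * (C' * t + D) = A * t + B} with hS
  have hS' : ∀ t, t ∉ S → σ t * (C' * t + D) = A * t + B := by
    intro t ht
    by_contra hne
    exact ht hne
  have hshift : ∀ u : F, {t : F | t + u ∈ S}.Finite := fun u =>
    h.preimage (add_left_injective u).injOn
  have hscale : ∀ u : F, u ≠ 0 → {t : F | t * u ∈ S}.Finite := fun u hu =>
    h.preimage (mul_left_injective₀ hu).injOn
  -- the pole
  have hC : C' = 0 := by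
    have hpoly : Polynomial.C (C' ^ 2) * X ^ 2 + Polynomial.C (2 * C' * D + C' ^ 2) * X +
        Polynomial.C (D * (C' + D) - (A * D - B * C')) = 0 := by
      apply eq_zero_of_infinite_isRoot
      refine ((h.union (hshift 1)).infinite_compl).mono ?_
      intro t ht
      simp only [Set.mem_compl_iff, Set.mem_union, not_or, Set.mem_setOf_eq] at ht
      have h1 := hS' t ht.1
      have h2 := hS' (t + 1) ht.2
      rw [map_add, map_one] at h2
      change Polynomial.IsRoot _ t
      rw [Polynomial.IsRoot.def]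
      simp only [eval_add, eval_mul, eval_C, eval_pow, eval_X]
      linear_combination (-(C' * t + C' + D)) * h1 + (C' * t + D) * h2
    have h2 := congrArg (fun P => Polynomial.coeff P 2) hpoly
    simp only [coeff_add, coeff_C_mul, coeff_X_pow, coeff_C, coeff_X, coeff_zero] at h2
    norm_num at h2
    exact h2
  subst hC
  simp only [mul_zero, sub_zero, zero_mul, zero_add] at hdet hS'
  have hD : D ≠ 0 := right_ne_zero_of_mul hdet
  have hA : A = D := by
    obtain ⟨t, ht⟩ := (h.union (hshift 1)).infinite_compl.nonempty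
    simp only [Set.mem_compl_iff, Set.mem_union, not_or, Set.mem_setOf_eq] at ht
    have h1 := hS' t ht.1
    have h2 := hS' (t + 1) ht.2
    rw [map_add, map_one] at h2
    linear_combination h1 - h2
  subst hA
  obtain ⟨b, hb⟩ : ∃ b, B = A * b := ⟨B / A, by field_simp⟩
  have hσ : ∀ t, t ∉ S → σ t = t + b := by
    intro t ht
    have h1 := hS' t ht
    apply mul_right_cancel₀ hD
    rw [h1, hb]
    ring
  have hb0 : b = 0 := by
    by_contra hb0
    obtain ⟨u, hu⟩ := (h.union (Set.finite_singleton 0)).infinite_compl.nonempty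
    simp only [Set.mem_compl_iff, Set.mem_union, not_or, Set.mem_singleton_iff] at hu
    obtain ⟨t, ht⟩ := ((h.union (hscale u hu.2)).union
      (Set.finite_singleton (1 - u - b))).infinite_compl.nonempty
    simp only [Set.mem_compl_iff, Set.mem_union, not_or, Set.mem_singleton_iff,
      Set.mem_setOf_eq] at ht
    have h1 := hσ t ht.1.1
    have h2 := hσ (t * u) ht.1.2
    have h3 := hσ u hu.1
    rw [map_mul, h1, h3] at h2
    apply ht.2
    have h4 : b * (t - (1 - u - b)) = 0 := by linear_combination h2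
    exact sub_eq_zero.1 ((mul_eq_zero.1 h4).resolve_left hb0)
  have hB : B = 0 := by rw [hb, hb0, mul_zero]
  refine ⟨rfl, hB, rfl, fun t => ?_⟩
  obtain ⟨u, hu⟩ := (h.union (hshift t)).infinite_compl.nonempty
  simp only [Set.mem_compl_iff, Set.mem_union, not_or, Set.mem_setOf_eq] at hu
  have h1 := hσ u hu.1
  have h2 := hσ (u + t) hu.2
  rw [map_add, h1, hb0] at h2
  linear_combination h2

section

variable {K : Type*} [Field K] [PerfectField K] {ℓ : ℕ} [Fact ℓ.Prime] [NeZero (ℓ : K)]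
  {k : Subfield K}

theorem adj_comap {γ : K ≃+* K} (hγ : ∀ x, x ∈ k ↔ γ x ∈ k) {s z : K}
    (hz : z ∈ adj k (γ s)) : γ.symm z ∈ adj k s := by
  obtain ⟨n, hn⟩ := mem_adj_iff.1 hz
  refine mem_adj_iff.2 ⟨n, ?_⟩
  have h1 : Vale.Agent.P019.adj k (γ s) ≤
      (Vale.Agent.P019.adj k s).comap (γ.symm : K →+* K) := by
    refine Vale.Agent.P019.adj_le ?_ ?_
    · intro x hx
      have h3 : (γ.symm : K →+* K) x ∈ k := (hγ _).2 (by simpa using hx)
      exact Vale.Agent.P019.le_adj k s h3
    · have h3 : (γ.symm : K →+* K) (γ s) ∈ Vale.Agent.P019.adj k s := by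
        rw [RingEquiv.coe_toRingHom, RingEquiv.symm_apply_apply]
        exact Vale.Agent.P019.mem_adj _ _
      exact h3
  have h2 := h1 hn
  rw [Subfield.mem_comap] at h2
  simpa using h2

theorem good_map {γ : K ≃+* K} (hγ : ∀ x, x ∈ k ↔ γ x ∈ k) {s : K} (hs : Good k s) :
    Good k (γ s) := by
  have hγ' : ∀ x, x ∈ k ↔ γ.symm x ∈ k := fun x => by
    rw [hγ (γ.symm x), RingEquiv.apply_symm_apply]
  refine ⟨fun h => hs.1 ((hγ s).2 h), ?_⟩
  intro z hz
  have h1 : IsAlgebraic (adj k s) (γ.symm z) := by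
    obtain ⟨P, hP0, hP⟩ := hz
    -- transport of the coefficients
    let τ : adj k (γ s) →+* adj k s :=
      ((γ.symm : K →+* K).comp (algebraMap (adj k (γ s)) K)).codRestrict (adj k s)
        (fun x => adj_comap hγ x.2)
    have hτ : ∀ x, ((τ x : adj k s) : K) = γ.symm (x : K) := fun x => rfl
    refine ⟨P.map τ, ?_, ?_⟩
    · intro h0
      apply hP0
      refine (Polynomial.map_eq_zero_iff τ.injective).1 h0
    · have h2 : aeval (γ.symm z) (P.map τ) = γ.symm (aeval z P) := by
        rw [aeval_def, eval₂_map, aeval_def]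
        have h3 : (algebraMap (adj k s) K).comp τ =
            (γ.symm : K →+* K).comp (algebraMap (adj k (γ s)) K) := by
          ext x
          rfl
        rw [h3]
        exact (Polynomial.hom_eval₂ P (algebraMap (adj k (γ s)) K) (γ.symm : K →+* K) z).symm
      rw [h2, hP, map_zero]
  have h2 : γ.symm z ∈ adj k s := hs.2 _ h1
  have h3 : γ.symm (γ.symm.symm (γ.symm z)) ∈ adj k s := by
    rw [RingEquiv.symm_symm, RingEquiv.apply_symm_apply]
    exact h2
  have h4 : γ.symm z ∈ adj k (γ.symm (γ s)) := by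
    rw [RingEquiv.symm_apply_apply]
    exact h2
  have h5 := adj_comap (γ := γ.symm) hγ' h4
  rwa [RingEquiv.symm_symm, RingEquiv.apply_symm_apply] at h5

/-- the form of an automorphism acting by a scalar, on a good element and on the constants. -/
theorem good_form (hk : IsAlgClosed k) (hfg : FG k (⊤ : Subfield K)) {γ : K ≃+* K}
    (hγ : ∀ x, x ∈ k ↔ γ x ∈ k) {e : ZMod ℓ} (he : e ≠ 0)
    (h : ∀ x, cl ℓ (γ x) = e • cl ℓ x) {s : K} (hs : Good k s) :
    ∃ (n j : ℕ) (y : K), y ^ ringExpChar K ^ n = s ∧ γ s = y ^ ringExpChar K ^ j ∧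
      ∀ β ∈ k, γ (β ^ ringExpChar K ^ n) = β ^ ringExpChar K ^ j := by
  classical
  haveI := hk
  haveI : PerfectField k := inferInstance
  haveI : Infinite k := IsAlgClosed.instInfinite
  have hq : ringExpChar K = ringExpChar k := (ringExpChar_eq_of_hom (algebraMap k K)).symm
  have hs' : Good k (γ s) := good_map hγ hs
  have hVS : VS ℓ (adj k (γ s)) ≤ VS ℓ (adj k s) := by
    intro v hv
    obtain ⟨z, hz, hz0, rfl⟩ := mem_VS.1 hv
    have h1 := h (γ.symm z)
    rw [RingEquiv.apply_symm_apply] at h1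
    rw [h1]
    exact Submodule.smul_mem _ _ (cl_mem_VS (adj_comap hγ hz))
  have hmem : γ s ∈ adj k s := adj_eq_of_VS hk hfg hs hs' hVS
  obtain ⟨n, y, p, q, hy, hcop, hq0, hpq⟩ := relb_coprime hk hs.1 hmem
  have hgy : Good k y := by
    rw [← hy, good_pow] at hs
    exact hs
  have hqy0 := line_aeval_ne hk hgy.1 hq0
  set Q : ℕ := ringExpChar K ^ n with hQ
  -- the values
  let σ : k →+* k := ((γ : K →+* K).comp (algebraMap k K)).codRestrict k
    (fun x => (hγ x).1 x.2)
  have hσ : ∀ b : k, ((σ b : k) : K) = γ (b : K) := fun b => rfl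
  have hval : ∀ β : k, q.eval β ≠ 0 → p.eval β = σ (β ^ Q) * q.eval β := by
    intro β hβ
    by_contra hne
    have hF0 : p - C (σ (β ^ Q)) * q ≠ 0 := by
      intro h0
      apply hne
      have h1 := congrArg (eval β) h0
      rw [eval_sub, eval_mul, eval_C, eval_zero, sub_eq_zero] at h1
      exact h1
    have hF0' := line_aeval_ne hk hgy.1 hF0
    have hs0 : y - (β : K) ≠ 0 := by
      intro h0
      exact hgy.1 (sub_eq_zero.1 h0 ▸ β.2)
    have h1 : γ s - ((σ (β ^ Q) : k) : K) = aeval y (p - C (σ (β ^ Q)) * q) / aeval y q := by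
      rw [hpq, map_sub, map_mul, aeval_C, sub_div, mul_div_assoc, div_self hqy0, mul_one]
      rfl
    have h2 : γ s - ((σ (β ^ Q) : k) : K) = γ ((y - (β : K)) ^ Q) := by
      rw [hσ, ← map_sub, hQ, sub_pow_q, hy]
      rfl
    have h3 : cl ℓ (aeval y (p - C (σ (β ^ Q)) * q) / aeval y q) =
        (e * (Q : ZMod ℓ)) • cl ℓ (y - (β : K)) := by
      rw [← h1, h2, h, mul_smul, cl_pow, Nat.cast_smul_eq_nsmul]
    have h4 := congrArg (del ℓ k y (β : K)) h3
    rw [cl_div ℓ hF0' hqy0, map_sub, del_aeval hk hgy hF0, del_aeval hk hgy hq0, map_smul,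
      del_self hk hgy β.2, rootMultiplicity_eq_zero hβ,
      rootMultiplicity_eq_zero (by
        rw [IsRoot.def, eval_sub, eval_mul, eval_C, sub_eq_zero]
        exact hne)] at h4
    simp only [Nat.cast_zero, sub_zero, smul_eq_mul, mul_one] at h4
    exact mul_ne_zero he (q_pow_ne_zero ℓ K n) h4.symm
  -- Moebius
  have hSfin : ({β : k | q.eval β ≠ 0}ᶜ : Set k).Finite := by
    refine (Polynomial.finite_setOfPred_isRoot hq0).subset ?_
    intro β hβ
    simpa using hβ
  have hpowinj : Function.Injective fun β : k => β ^ Q := by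
    intro β β' hββ
    have h1 : ((β : K)) ^ Q = (β' : K) ^ Q := by
      have := congrArg (Subtype.val : k → K) hββ
      simpa using this
    exact Subtype.ext (pow_q_inj h1)
  obtain ⟨j, A, B, C', D, hdet, hp, hq'⟩ := mob_of_inj p q hcop {β : k | q.eval β ≠ 0} hSfin (by
    intro x hx x' hx' hxx
    rw [hval x hx, hval x' hx'] at hxx
    have h1 : σ (x ^ Q) = σ (x' ^ Q) := by
      have h2 : (σ (x ^ Q) - σ (x' ^ Q)) * (q.eval x * q.eval x') = 0 := by
        linear_combination hxx
      exact sub_eq_zero.1 ((mul_eq_zero.1 h2).resolve_right (mul_ne_zero hx hx'))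
    exact hpowinj (σ.injective h1))
  rw [← hq] at hp hq'
  -- the twisted endomorphism
  haveI : ExpChar k (ringExpChar K) := by rw [hq]; exact ringExpChar.expChar k
  haveI : PerfectRing k (ringExpChar K) := PerfectField.toPerfectRing (ringExpChar K)
  let τ : k →+* k := (σ.comp (iterateFrobenius k (ringExpChar K) n)).comp
    ((iterateFrobeniusEquiv k (ringExpChar K) j).symm : k →+* k)
  have hτ : ∀ β : k, τ (β ^ ringExpChar K ^ j) = σ (β ^ Q) := by
    intro β
    change σ (iterateFrobenius k (ringExpChar K) n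
      ((iterateFrobeniusEquiv k (ringExpChar K) j).symm (β ^ ringExpChar K ^ j))) = _
    rw [← iterateFrobeniusEquiv_def k (ringExpChar K) j β, RingEquiv.symm_apply_apply,
      iterateFrobenius_def]
  have hpj : Function.Injective fun β : k => β ^ ringExpChar K ^ j := by
    intro β β' hββ
    have h1 : ((β : K)) ^ ringExpChar K ^ j = (β' : K) ^ ringExpChar K ^ j := by
      have := congrArg (Subtype.val : k → K) hββ
      simpa using this
    exact Subtype.ext (pow_q_inj h1)
  obtain ⟨hC0, hB0, hAD, hid⟩ := mob_hom τ hdet (by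
    refine ((hSfin.image (fun β : k => β ^ ringExpChar K ^ j))).subset ?_
    intro t ht
    obtain ⟨β, hβ⟩ : ∃ β : k, β ^ ringExpChar K ^ j = t := by
      refine ⟨(iterateFrobeniusEquiv k (ringExpChar K) j).symm t, ?_⟩
      rw [← iterateFrobeniusEquiv_def k (ringExpChar K) j, RingEquiv.apply_symm_apply]
    refine ⟨β, ?_, hβ⟩
    intro hβ'
    apply ht
    have h1 := hval β hβ'
    rw [← hβ, hτ]
    have h2 : p.eval β = A * β ^ ringExpChar K ^ j + B := by
      rw [hp]; simp
    have h3 : q.eval β = C' * β ^ ringExpChar K ^ j + D := by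
      rw [hq']; simp
    rw [← h2, ← h3, h1])
  subst hC0 hB0 hAD
  have hA0 : A ≠ 0 := by
    intro h0
    apply hdet
    rw [h0]
    ring
  refine ⟨n, j, y, hy, ?_, ?_⟩
  · rw [hpq, hp, hq']
    have hA0' : ((A : k) : K) ≠ 0 := fun h0 => hA0 (Subtype.ext h0)
    simp only [map_add, map_mul, map_pow, aeval_C, aeval_X, map_zero, zero_mul, zero_add, add_zero]
    rw [mul_comm, mul_div_assoc]
    change _ * (((A : k) : K) / ((A : k) : K)) = _
    rw [div_self hA0', mul_one]
  · intro β hβ
    have h1 := hid ((⟨β, hβ⟩ : k) ^ ringExpChar K ^ j)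
    rw [hτ] at h1
    have h2 := congrArg (Subtype.val : k → K) h1
    rw [hσ] at h2
    simpa only [SubmonoidClass.coe_pow] using h2

theorem pow_eq_of_forall (hk : IsAlgClosed k) {a b : ℕ} (h : ∀ β ∈ k, β ^ a = β ^ b) :
    a = b := by
  haveI := hk
  haveI : Infinite k := IsAlgClosed.instInfinite
  have h1 : (X ^ a : k[X]) = X ^ b := by
    apply Polynomial.funext
    intro r
    have h2 := h r r.2
    apply Subtype.ext
    simpa using h2
  have h2 := congrArg Polynomial.natDegree h1
  simpa using h2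

theorem q_pow_pos (K : Type*) [Field K] (n : ℕ) : 0 < ringExpChar K ^ n :=
  Nat.pos_of_ne_zero (qn_ne_zero K n)

theorem mul_pow_eq_one {a b : ℕ} (h : a * b = 1) : a = 1 ∧ b = 1 :=
  ⟨Nat.eq_one_of_mul_eq_one_right h, Nat.eq_one_of_mul_eq_one_left h⟩

/-- the signed form of `good_form`. -/
theorem good_form' (hk : IsAlgClosed k) (hfg : FG k (⊤ : Subfield K)) {γ : K ≃+* K}
    (hγ : ∀ x, x ∈ k ↔ γ x ∈ k) {e : ZMod ℓ} (he : e ≠ 0)
    (h : ∀ x, cl ℓ (γ x) = e • cl ℓ x) {s : K} (hs : Good k s) :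
    ∃ m : ℕ, ((∀ β ∈ k, γ β = β ^ ringExpChar K ^ m) ∧ γ s = s ^ ringExpChar K ^ m) ∨
      ((∀ β ∈ k, (γ β) ^ ringExpChar K ^ m = β) ∧ (γ s) ^ ringExpChar K ^ m = s) := by
  haveI := hk
  haveI : PerfectField k := inferInstance
  obtain ⟨n, j, y, hy, hs1, hβ⟩ := good_form hk hfg hγ he h hs
  rcases le_total n j with hnj | hnj
  · obtain ⟨m, rfl⟩ := Nat.exists_eq_add_of_le hnj
    refine ⟨m, Or.inl ⟨?_, ?_⟩⟩
    · intro β hb
      obtain ⟨β', hb', h1⟩ := exists_root_q k hb n
      rw [← h1, hβ β' hb', pow_add, pow_mul]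
    · rw [hs1, pow_add, pow_mul, hy]
  · obtain ⟨m, rfl⟩ := Nat.exists_eq_add_of_le hnj
    refine ⟨m, Or.inr ⟨?_, ?_⟩⟩
    · intro β hb
      obtain ⟨β', hb', h1⟩ := exists_root_q k hb (j + m)
      rw [← h1, hβ β' hb', ← pow_mul, ← pow_add]
    · rw [hs1, ← pow_mul, ← pow_add, hy]

/-- **Uniqueness up to Frobenius.** -/
theorem frob_of_smul (hk : IsAlgClosed k) (hfg : FG k (⊤ : Subfield K))
    (htr : ∃ x y : K, x ∉ k ∧ ¬ IsAlgebraic (adj k x) y) {γ : K ≃+* K}
    (hγ : ∀ x, x ∈ k ↔ γ x ∈ k) {e : ZMod ℓ} (he : e ≠ 0)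
    (h : ∀ x, cl ℓ (γ x) = e • cl ℓ x) :
    ∃ n : ℕ, ((∀ x, γ x = x ^ ringExpChar K ^ n) ∧ e = ((ringExpChar K ^ n : ℕ) : ZMod ℓ)) ∨
      ((∀ x, (γ x) ^ ringExpChar K ^ n = x) ∧ e * ((ringExpChar K ^ n : ℕ) : ZMod ℓ) = 1) := by
  haveI := hk
  have bert : ∀ x y : K, x ∉ k → ¬ IsAlgebraic (adj k x) y → ∀ᶠ c in ae k, Good k (x + c * y) :=
    fun x y hx hy => ae_iff.2 (bertini hk hfg hx hy)
  obtain ⟨s₀, hs₀⟩ : ∃ s, Good k s := by
    obtain ⟨x, y, hx, hy⟩ := htr
    obtain ⟨c, -, hc⟩ := exists_ae (infinite_of_isAlgClosed hk) (bert x y hx hy)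
    exact ⟨_, hc⟩
  have hcl : del ℓ k s₀ 0 (cl ℓ s₀) = 1 := by
    have := del_self (ℓ := ℓ) hk hs₀ k.zero_mem
    rwa [sub_zero] at this
  obtain ⟨m, ⟨hm1, hm2⟩ | ⟨hm1, hm2⟩⟩ := good_form' hk hfg hγ he h hs₀
  · refine ⟨m, Or.inl ⟨?_, ?_⟩⟩
    · have hgood : ∀ s, Good k s → γ s = s ^ ringExpChar K ^ m := by
        intro s hs
        obtain ⟨m', ⟨h1, h2⟩ | ⟨h1, h2⟩⟩ := good_form' hk hfg hγ he h hs
        · rw [h2, pow_eq_of_forall hk (fun β hb => (h1 β hb).symm.trans (hm1 β hb))]
        · have h3 : ringExpChar K ^ m * ringExpChar K ^ m' = 1 := by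
            refine pow_eq_of_forall hk (fun β hb => ?_)
            rw [pow_mul, ← hm1 β hb, h1 β hb, pow_one]
          have h4 := mul_pow_eq_one h3
          rw [h4.2, pow_one] at h2
          rw [h4.1, pow_one, h2]
      intro x
      by_cases hx : x ∈ k
      · exact hm1 x hx
      obtain ⟨g, hg1, hg2⟩ := exists_quot hk htr bert hx
      have hg0 : g ≠ 0 := fun h0 => hg1.1 (h0 ▸ k.zero_mem)
      have h1 : γ x * γ g = x ^ ringExpChar K ^ m * γ g := by
        rw [← map_mul, hgood _ hg2, hgood _ hg1, mul_pow]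
      exact mul_right_cancel₀ (fun h0 => hg0 ((map_eq_zero_iff γ γ.injective).1 h0)) h1
    · have h1 := congrArg (del ℓ k s₀ 0) (h s₀)
      rw [hm2, cl_pow, map_nsmul, map_smul, hcl] at h1
      simpa using h1.symm
  · refine ⟨m, Or.inr ⟨?_, ?_⟩⟩
    · have hgood : ∀ s, Good k s → (γ s) ^ ringExpChar K ^ m = s := by
        intro s hs
        obtain ⟨m', ⟨h1, h2⟩ | ⟨h1, h2⟩⟩ := good_form' hk hfg hγ he h hs
        · have h3 : ringExpChar K ^ m' * ringExpChar K ^ m = 1 := by
            refine pow_eq_of_forall hk (fun β hb => ?_)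
            rw [pow_mul, ← h1 β hb, hm1 β hb, pow_one]
          have h4 := mul_pow_eq_one h3
          rw [h4.2, pow_one, h2, h4.1, pow_one]
        · have h3 : ringExpChar K ^ m = ringExpChar K ^ m' := by
            refine pow_eq_of_forall hk (fun β hb => ?_)
            have hb' : γ.symm β ∈ k := by
              rw [hγ, RingEquiv.apply_symm_apply]; exact hb
            have h5 := hm1 _ hb'
            have h6 := h1 _ hb'
            rw [RingEquiv.apply_symm_apply] at h5 h6
            rw [h5, h6]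
          rw [h3, h2]
      intro x
      by_cases hx : x ∈ k
      · exact hm1 x hx
      obtain ⟨g, hg1, hg2⟩ := exists_quot hk htr bert hx
      have hg0 : g ≠ 0 := fun h0 => hg1.1 (h0 ▸ k.zero_mem)
      have h1 : (γ x) ^ ringExpChar K ^ m * g = x * g := by
        conv_lhs => rw [← hgood _ hg1]
        rw [← mul_pow, ← map_mul, hgood _ hg2]
      exact mul_right_cancel₀ hg0 h1
    · have h1 := congrArg (cl ℓ) hm2
      rw [cl_pow, h, ← Nat.cast_smul_eq_nsmul (ZMod ℓ), smul_smul] at h1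
      have h2 := congrArg (del ℓ k s₀ 0) h1
      rw [map_smul, hcl, smul_eq_mul, mul_one] at h2
      rw [mul_comm]
      exact h2

end

end Vale.Agent.P019P.H654
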